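import Vale.Agent.P097F.Top1
import Vale.Agent.P097W2.Env
import Vale.Agent.P097G3.Defs

/-!
# P097F: the dichotomy (definitions and statements)
-/

set_option linter.all false

noncomputable section

namespace Vale.Agent.P097F.Di

open Set Vale.Agent.P097T Vale.Agent.P097W
open Vale.Agent.P097K (Lv Few)

/-- the envelope with the moment of order `j` -/
structure Wd (r u₀ : ℝ) (η : ℝ → ℝ) (g Q : ℂ → ℂ) (m N j : ℕ) (a : ℝ → ℝ) : Prop where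
  m1 : 1 ≤ m
  N8 : 8 ≤ N
  env : Envl η u₀ m N a
  mom : MomP r g Q {a} j

/-- a local peak: step `u`, depth `η u`, height `η u / u` -/
def Pk (η : ℝ → ℝ) (u₀ : ℝ) (a : ℝ → ℝ) (u : ℝ) : Prop :=
  u ∈ Ioo 0 u₀ ∧ 0 < η u ∧ a (η u) * u ≤ 2 * η u

/-- the points where `|g| t` is at least `b` -/
def Big (r : ℝ) (g : ℂ → ℂ) (b : ℝ) : Set ℂ := {y | y ∈ Strip r ∧ b ≤ ‖g y‖ * (r - |y.im|)}

/-- all high peaks are Galilean -/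
def GAL (r u₀ : ℝ) (η : ℝ → ℝ) (g : ℂ → ℂ) (a : ℝ → ℝ) : Prop :=
  ∀ δ φ Λ : ℝ, 0 < δ → 0 < φ → 1 ≤ Λ → ∃ R : ℝ, ∀ u, Pk η u₀ a u → R * u ≤ η u →
    ∀ k : ℕ, η u ≤ Λ * (r * (1 / 2) ^ k) → r * (1 / 2) ^ k ≤ Λ * η u →
      Few r (Big r g (δ * (η u / u))) k φ

/-- circle windows at arbitrarily high peaks -/
def CIRC (r u₀ : ℝ) (η : ℝ → ℝ) (g : ℂ → ℂ) (a : ℝ → ℝ) : Prop :=
  ∃ δ φ Λ : ℝ, 0 < δ ∧ 0 < φ ∧ 1 ≤ Λ ∧ ∀ R : ℝ, ∃ u, Pk η u₀ a u ∧ R * u ≤ η u ∧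
    ∃ k : ℕ, η u ≤ Λ * (r * (1 / 2) ^ k) ∧ r * (1 / 2) ^ k ≤ Λ * η u ∧
      ¬ Few r (Big r g (δ * (η u / u))) k φ

theorem gal_or (r u₀ : ℝ) (η : ℝ → ℝ) (g : ℂ → ℂ) (a : ℝ → ℝ) :
    GAL r u₀ η g a ∨ CIRC r u₀ η g a := by
  by_cases h : GAL r u₀ η g a
  · exact Or.inl h
  · right
    unfold GAL at h
    push Not at h
    exact h

/-- the level `k` contains a peak of height at least `R` -/
def PL (r u₀ : ℝ) (η : ℝ → ℝ) (a : ℝ → ℝ) (R : ℝ) (k : ℕ) : Prop :=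
  ∃ u, Pk η u₀ a u ∧ R * u ≤ η u ∧ r * (1 / 2) ^ (k + 1) < η u ∧ η u ≤ r * (1 / 2) ^ k

/-- the squares of the heights of the peaks down to the level `L` add up to `O (L ^ 2)` -/
def VS (r u₀ : ℝ) (η : ℝ → ℝ) (a : ℝ → ℝ) : Prop := ∃ C R : ℝ, ∀ L : ℕ, 1 ≤ L →
  ∀ P : Finset ℕ, (∀ k ∈ P, k ≤ L ∧ PL r u₀ η a R k) →
    ∑ k ∈ P, a (r * (1 / 2) ^ k) ^ 2 ≤ C * (L : ℝ) ^ 2

/-- near a high peak `|Q|` is large on a set of positive proportion -/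
def ACTV (r u₀ : ℝ) (η : ℝ → ℝ) (Q : ℂ → ℂ) (a : ℝ → ℝ) : Prop :=
  ∃ c Λ R : ℝ, 0 < c ∧ 1 ≤ Λ ∧ ∀ u, Pk η u₀ a u → R * u ≤ η u →
    ENNReal.ofReal (c * η u) ≤ MeasureTheory.volume {y : ℂ | 0 ≤ y.re ∧ y.re ≤ 1 ∧ 0 < y.im ∧
      η u ≤ Λ * (r - y.im) ∧ r - y.im ≤ Λ * η u ∧ c * (η u / u) ^ 2 ≤ ‖Q y‖ * (r - y.im) ^ 2}

def S_WD : Prop := ∀ r c κ u₀ p θ H Q Y₀ η Y, Dat r c κ u₀ p θ H Q Y₀ η Y → ∀ j N₀ : ℕ,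
  ∃ N a, N₀ ≤ N ∧ Wd r u₀ η (deriv θ) Q p N j a

def S_ACTV : Prop := ∀ r c κ u₀ p θ H Q Y₀ η Y, Dat r c κ u₀ p θ H Q Y₀ η Y → ∀ m N a,
  Wd r u₀ η (deriv θ) Q m N 16 a → GAL r u₀ η (deriv θ) a → ACTV r u₀ η Q a

def S_VS : Prop := ∀ r c κ u₀ p θ H Q Y₀ η Y, Dat r c κ u₀ p θ H Q Y₀ η Y → ∀ m N a,
  Wd r u₀ η (deriv θ) Q m N 16 a → ACTV r u₀ η Q a → VS r u₀ η a

def S_THA : Prop := ∀ r c κ u₀ p θ H Q Y₀ η Y, Dat r c κ u₀ p θ H Q Y₀ η Y → ∀ m N a,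
  Wd r u₀ η (deriv θ) Q m N 16 a → GAL r u₀ η (deriv θ) a → VS r u₀ η a →
  P097G3.TH r (deriv θ)

/-- **DICH** -/
def Spec_DICH : Prop := ∀ r c κ u₀ p θ H Q Y₀ η Y, Dat r c κ u₀ p θ H Q Y₀ η Y → ∀ m N j a,
  16 ≤ j → Wd r u₀ η (deriv θ) Q m N j a → P097G3.TH r (deriv θ) ∨ CIRC r u₀ η (deriv θ) a

/-- **the circle machine** -/
def Spec_CM : Prop := ∃ j : ℕ, 16 ≤ j ∧ ∀ r c κ u₀ p θ H Q Y₀ η Y,
  Dat r c κ u₀ p θ H Q Y₀ η Y → ∀ m N a, Wd r u₀ η (deriv θ) Q m N j a →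
    CIRC r u₀ η (deriv θ) a → False

theorem Wd.mono {r u₀ : ℝ} {η : ℝ → ℝ} {g Q : ℂ → ℂ} {m N j j' : ℕ} {a : ℝ → ℝ}
    (W : Wd r u₀ η g Q m N j a) (h : j' ≤ j) : Wd r u₀ η g Q m N j' a := by
  obtain ⟨C, hC⟩ := W.mom
  refine ⟨W.m1, W.N8, W.env, |C|, fun b hb k l hl => (hC b hb k l hl).mono subset_rfl ?_⟩
  calc _ ≤ |C| / l ^ j := by gcongr; exact le_abs_self C
    _ ≤ _ := div_le_div_of_nonneg_left (abs_nonneg C) (by positivity) (pow_le_pow_right₀ hl h)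

theorem dich_of (A : S_ACTV) (V : S_VS) (T : S_THA) : Spec_DICH := by
  intro r c κ u₀ p θ H Q Y₀ η Y D m N j a hj W
  rcases gal_or r u₀ η (deriv θ) a with G | G
  · have W' := W.mono hj
    exact Or.inl (T _ _ _ _ _ _ _ _ _ _ _ D m N a W' G
      (V _ _ _ _ _ _ _ _ _ _ _ D m N a W' (A _ _ _ _ _ _ _ _ _ _ _ D m N a W' G)))
  · exact Or.inr G

theorem p1 {r c κ u₀ : ℝ} {p : ℕ} {θ H Q : ℂ → ℂ} {Y₀ : ℂ × ℂ → ℂ} {η : ℝ → ℝ}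
    {Y : ℝ → ℂ × ℂ → ℂ} (D : Dat r c κ u₀ p θ H Q Y₀ η Y) : 1 ≤ p := by
  obtain ⟨C, hC⟩ := D.pw
  by_contra k
  obtain rfl : p = 0 := by omega
  obtain ⟨S, hS, -, h⟩ := D.fam.big D.big C 1 one_pos
  have := hC S hS
  rw [zero_add, pow_one] at this
  linarith

theorem wd : S_WD := by
  intro r c κ u₀ p θ H Q Y₀ η Y D j N₀
  obtain ⟨C, hC⟩ := D.pw
  have u0 := D.fam.pos
  obtain ⟨N, N8, M⟩ := h2d r c (u₀ / 2) θ H Q (p + 1) D.cur (by omega) (by positivity) j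
  obtain ⟨a, E⟩ := envl η u₀ C p (max N N₀) (by omega) D.fam.nn hC
  refine ⟨max N N₀, a, le_max_right _ _, p1 D, by omega, E, M.mono ?_⟩
  rintro _ rfl
  exact ⟨E.env0 (fun u hu e k => D.fam.rch hu k) (by linarith),
    E.dec.mono E.one (le_max_left _ _)⟩

end Vale.Agent.P097F.Di
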