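import Vale.Agent.P097F.Di.Tha
import Vale.Agent.P097F.Defs
import Vale.Agent.P097G3.Core

/-!
# P097F: the dichotomy in window form
-/

set_option linter.all false

noncomputable section

namespace Vale.Agent.P097F.Di

open Set Vale.Agent.P097T Vale.Agent.P097W Complex ComplexConjugate

theorem circ (X : DD) {a : ℝ → ℝ} (h : CIRC X.r X.u₀ X.η (deriv X.θ) a) : X.Circ a := by
  obtain ⟨δ, φ, Λ, δ0, φ0, Λ1, h⟩ := h
  have hr := X.dat.cur.rpos
  have S := P097G3.sym _ _ 1 _ _ _ _ (P097K.sd_of X.dat.cur)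
  have q0 : 0 < Λ / X.r := by positivity
  refine ⟨φ, δ / Λ, 2 * Λ + Λ / X.r, φ0, by positivity, by linarith, fun R => ?_⟩
  obtain ⟨u, pk, hu, k, k1, k2, nf⟩ := h R
  refine ⟨u, pk, hu, ?_⟩
  have u0 := pk.1.1
  have e0 := pk.2.1
  refine (not_le.1 fun v => nf (P097K.few_of_vol φ0.le v)).le.trans (MeasureTheory.measure_mono ?_)
  rintro s ⟨hs, y, ⟨hy, b⟩, ⟨l1, l2⟩, m, hm⟩
  obtain ⟨y', a1, a2, a3⟩ : ∃ y' : ℂ, y'.re = y.re - m ∧ y'.im = |y.im| ∧
      ‖deriv X.θ y'‖ = ‖deriv X.θ y‖ := by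
    rcases le_total 0 y.im with c | c
    · exact ⟨y + ((-m : ℤ) : ℂ), by simp [sub_eq_add_neg], by simp [abs_of_nonneg c],
        (S y hy).2 _⟩
    · have hc : conj y ∈ P097C.St X.r := by simpa [P097C.St, Strip] using hy
      exact ⟨conj y + ((-m : ℤ) : ℂ), by simp [sub_eq_add_neg], by simp [abs_of_nonpos c],
        ((S _ hc).2 _).trans (S y hy).1⟩
  have e1 : (X.η u : ℂ) ≠ 0 := by exact_mod_cast e0.ne'
  have w : X.wy u s ((y' - s - X.r * I) / X.η u) = y' := by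
    rw [DD.wy]; field_simp; ring
  have i1 : -((y' - s - X.r * I) / X.η u).im = (X.r - |y.im|) / X.η u := by
    rw [div_ofReal_im, ← a2]; simp; ring
  obtain ⟨τ, hτ⟩ : ∃ τ, τ = X.r * (1 / 2) ^ k := ⟨_, rfl⟩
  rw [pow_succ, ← mul_assoc] at l1
  rw [← hτ] at l1 l2 k1 k2
  have τ0 : 0 < τ := by rw [hτ]; positivity
  refine ⟨hs, (y' - s - X.r * I) / X.η u, ?_, ?_, ?_, ?_, ?_⟩
  · show X.wy u s _ ∈ Strip X.r
    rw [w]
    show |y'.im| < X.r
    rw [a2, abs_abs]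
    exact hy
  · have : ((y' - s - X.r * I) / X.η u).re = (y.re - m - s) / X.η u := by
      rw [div_ofReal_re, ← a1]; simp
    rw [this, abs_div, abs_of_pos e0, div_le_iff₀ e0]
    have : (1 / 2 : ℝ) ^ k ≤ Λ / X.r * X.η u := by
      rw [div_mul_eq_mul_div, le_div_iff₀' hr, ← hτ]; exact k2
    nlinarith
  · rw [i1, div_le_div_iff₀ (by linarith) e0]
    nlinarith
  · rw [i1, div_le_iff₀ e0]
    nlinarith
  · rw [DD.gw, w, norm_mul, a3, norm_real, Real.norm_eq_abs, abs_of_pos u0, div_le_iff₀ (by linarith)]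
    rw [← mul_div_assoc, div_le_iff₀ u0] at b
    refine le_of_mul_le_mul_right (b.trans ?_) e0
    calc _ ≤ ‖deriv X.θ y‖ * (Λ * X.η u) * u := by gcongr; exact l2.trans k2
      _ = _ := by ring

/-- the envelopes with a large exponent carry the moments -/
theorem wd_all (X : DD) (j : ℕ) : ∃ N₀ : ℕ, ∀ N ≥ N₀, ∀ a, Envl X.η X.u₀ X.p N a →
    Wd X.r X.u₀ X.η (deriv X.θ) X.Q X.p N j a := by
  have D := X.dat
  have u0 := D.fam.pos
  obtain ⟨N, N8, M⟩ := h2d X.r X.c (X.u₀ / 2) X.θ X.H X.Q (X.p + 1) D.cur (by omega)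
    (by positivity) j
  refine ⟨N, fun N' hN a E => ⟨p1 D, by omega, E, M.mono ?_⟩⟩
  rintro _ rfl
  exact ⟨E.env0 (fun u hu e k => D.fam.rch hu k) (by linarith), E.dec.mono E.one hN⟩

theorem dich12 (h : Spec_DICH) : P097F.Spec_DICH := by
  intro X
  obtain ⟨N₀, w⟩ := wd_all X 16
  refine ⟨N₀, fun N hN a E => ?_⟩
  refine (h _ _ _ _ _ _ _ _ _ _ _ X.dat X.p N 16 a le_rfl (w N hN a E)).imp (fun t => ?_) (circ X)
  exact P097G3.thb (P097G3.thp _ _ X.dat.cur.rpos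
    (P097G3.sym _ _ 1 _ _ _ _ (P097K.sd_of X.dat.cur)) t)

end Vale.Agent.P097F.Di
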