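import Vale.Agent.P097F.Di.Defs
import Vale.Agent.P097S.Brg2

/-!
# P097F: Galilean peaks give a small turning
-/

set_option linter.all false

noncomputable section

namespace Vale.Agent.P097F.Di

open Set Vale.Agent.P097T Vale.Agent.P097W Finset
open Vale.Agent.P097K (Lv Few Band)
open Vale.Agent.P097C (St)

namespace Tha

theorem geo {ρ : ℝ} (h0 : 0 ≤ ρ) (h1 : ρ < 1) (n j : ℕ) :
    ∑ k ∈ range n, ρ ^ (k - j + (j - k)) ≤ 2 * (1 - ρ)⁻¹ := by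
  classical
  have key : ∀ (s : Finset ℕ) (f : ℕ → ℕ), Set.InjOn f s → ∑ k ∈ s, ρ ^ f k ≤ (1 - ρ)⁻¹ := by
    intro s f hf
    rw [← sum_image (f := fun i => ρ ^ i) hf, ← tsum_geometric_of_lt_one h0 h1]
    exact (summable_geometric_of_lt_one h0 h1).sum_le_tsum _ fun i _ => pow_nonneg h0 i
  rw [← sum_filter_add_sum_filter_not (range n) (fun k => k ≤ j)]
  have a1 := key ((range n).filter fun k => k ≤ j) (fun k => k - j + (j - k)) fun x hx y hy e => by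
    simp only [coe_filter, mem_setOf_eq] at hx hy e
    omega
  have a2 := key ((range n).filter fun k => ¬ k ≤ j) (fun k => k - j + (j - k)) fun x hx y hy e => by
    simp only [coe_filter, mem_setOf_eq] at hx hy e
    omega
  linarith

/-- the shadows of the peaks -/
theorem sum {α : ℕ → ℝ} {P : ℕ → Prop} {σ C₀ : ℝ} (h0 : 0 ≤ σ) (h1 : σ < 1)
    (hV : ∀ L : ℕ, 1 ≤ L → ∀ S : Finset ℕ, (∀ k ∈ S, k ≤ L ∧ P k) →
      ∑ k ∈ S, α k ^ 2 ≤ C₀ * (L : ℝ) ^ 2) :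
    ∃ C₈ C₉ : ℝ, 0 ≤ C₈ ∧ 0 ≤ C₉ ∧ ∀ (L : ℕ) (K : Finset ℕ) (j : ℕ → ℕ), 1 ≤ L → K ⊆ range (L + 1) →
      (∀ k ∈ K, P (j k)) →
      ∑ k ∈ K, α (j k) ^ 2 * (σ ^ 2) ^ (k - j k + (j k - k)) ≤ C₈ * (L : ℝ) ^ 2 + C₉ := by
  classical
  have C0 : 0 ≤ C₀ := by simpa using hV 1 le_rfl ∅ (by simp)
  have ρ0 : 0 ≤ σ ^ 2 := sq_nonneg σ
  have ρ1 : σ ^ 2 < 1 := pow_lt_one₀ h0 h1 two_ne_zero
  have G0 : 0 ≤ 2 * (1 - σ ^ 2)⁻¹ := by have : 0 < 1 - σ ^ 2 := by linarith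
                                        positivity
  have sm : Summable fun j : ℕ => (j : ℝ) ^ 3 * σ ^ j :=
    summable_pow_mul_geometric_of_norm_lt_one 3 (by rwa [Real.norm_eq_abs, abs_of_nonneg h0])
  refine ⟨4 * C₀ * (2 * (1 - σ ^ 2)⁻¹), C₀ * ∑' j : ℕ, (j : ℝ) ^ 3 * σ ^ j, by positivity,
    mul_nonneg C0 (tsum_nonneg fun j => by positivity), fun L K j L1 hK hP => ?_⟩
  set J := K.image j with hJ
  have PJ : ∀ i ∈ J, P i := fun i hi => by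
    obtain ⟨k, hk, rfl⟩ := mem_image.1 hi
    exact hP k hk
  calc _ ≤ ∑ k ∈ range (L + 1), ∑ i ∈ J, α i ^ 2 * (σ ^ 2) ^ (k - i + (i - k)) := by
        refine le_trans (sum_le_sum fun k hk => ?_)
          (sum_le_sum_of_subset_of_nonneg hK fun k _ _ => sum_nonneg fun i _ => by positivity)
        exact single_le_sum (f := fun i => α i ^ 2 * (σ ^ 2) ^ (k - i + (i - k)))
          (fun i _ => by positivity) (mem_image_of_mem j hk)
    _ = ∑ i ∈ J, α i ^ 2 * ∑ k ∈ range (L + 1), (σ ^ 2) ^ (k - i + (i - k)) := by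
        rw [sum_comm]; simp only [mul_sum]
    _ ≤ _ := by
        rw [← sum_filter_add_sum_filter_not J (fun i => i ≤ 2 * L)]
        refine add_le_add ?_ ?_
        · calc _ ≤ ∑ i ∈ J.filter (fun i => i ≤ 2 * L), α i ^ 2 * (2 * (1 - σ ^ 2)⁻¹) :=
                sum_le_sum fun i _ => mul_le_mul_of_nonneg_left (geo ρ0 ρ1 _ _) (sq_nonneg _)
            _ ≤ C₀ * ((2 * L : ℕ) : ℝ) ^ 2 * (2 * (1 - σ ^ 2)⁻¹) := by
                rw [← sum_mul]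
                exact mul_le_mul_of_nonneg_right (hV (2 * L) (by omega) _ fun i hi =>
                  ⟨(mem_filter.1 hi).2, PJ i (mem_filter.1 hi).1⟩) G0
            _ = _ := by push_cast; ring
        · calc _ ≤ ∑ i ∈ J.filter (fun i => ¬ i ≤ 2 * L), C₀ * ((i : ℝ) ^ 3 * σ ^ i) := by
                refine sum_le_sum fun i hi => ?_
                obtain ⟨i1, i2⟩ := mem_filter.1 hi
                have a1 : α i ^ 2 ≤ C₀ * (i : ℝ) ^ 2 := by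
                  simpa using hV i (by omega) {i} (by simpa using PJ i i1)
                have a2 : ∑ k ∈ range (L + 1), (σ ^ 2) ^ (k - i + (i - k)) ≤ i * σ ^ i := by
                  refine (sum_le_card_nsmul _ _ (σ ^ i) fun k hk => ?_).trans ?_
                  · rw [← pow_mul]
                    have := mem_range.1 hk
                    exact pow_le_pow_of_le_one h0 h1.le (by omega)
                  · rw [card_range, nsmul_eq_mul]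
                    gcongr
                    omega
                calc _ ≤ C₀ * (i : ℝ) ^ 2 * (i * σ ^ i) :=
                      mul_le_mul a1 a2 (sum_nonneg fun k _ => by positivity) (by positivity)
                  _ = _ := by ring
            _ ≤ _ := by
                rw [← mul_sum]
                exact mul_le_mul_of_nonneg_left (sm.sum_le_tsum _ fun i _ => by positivity) C0

variable {r : ℝ}

theorem two {k : ℕ} {B : Set ℂ} {φ : ℝ} (hr : 0 < r) (h1 : Few r B k φ) (h2 : Few r B (k + 1) φ) :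
    ∃ I : Finset ℝ, (I.card : ℝ) ≤ 3 * φ * 2 ^ k ∧
      ∀ y ∈ B, Band r k y → ∃ b ∈ I, ∃ m : ℤ, |y.re - m - b| ≤ 1 / 2 ^ k := by
  classical
  obtain ⟨I, a1, a2⟩ := h1
  obtain ⟨I', b1, b2⟩ := h2
  have p0 : (0 : ℝ) < 2 ^ k := by positivity
  refine ⟨I ∪ I', ?_, fun y hy hB => ?_⟩
  · have h : ((I ∪ I').card : ℝ) ≤ I.card + I'.card := by exact_mod_cast Finset.card_union_le _ _
    rw [one_div_pow, mul_one_div, div_le_iff₀ (by positivity)] at a1 b1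
    rw [pow_succ] at b1
    linarith
  · obtain ⟨c1, c2⟩ := hB
    rcases c1.eq_or_lt with e | e
    · obtain ⟨x, hx, m, hm⟩ := b2 y hy ⟨by
        rw [← e, one_div_pow, mul_one_div]
        exact div_lt_div_of_pos_left hr (by positivity) (pow_lt_pow_right₀ (by norm_num) (by omega)),
        by rw [← e, one_div_pow, mul_one_div]⟩
      refine ⟨x, mem_union_right _ hx, m, hm.trans ?_⟩
      rw [one_div_pow]
      exact one_div_le_one_div_of_le p0 (pow_le_pow_right₀ (by norm_num) (by omega))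
    · obtain ⟨x, hx, m, hm⟩ := a2 y hy ⟨by rwa [one_div_pow, mul_one_div],
        by rwa [one_div_pow, mul_one_div]⟩
      exact ⟨x, mem_union_left _ hx, m, by rwa [one_div_pow] at hm⟩

/-- `b` dominates `|g| t` on the boxes of the level `k` -/
def OK (r : ℝ) (g : ℂ → ℂ) (k : ℕ) (b : ℕ → ℝ) : Prop := (∀ i, 0 ≤ b i) ∧
  ∀ y ∈ St r, 0 ≤ y.im → Band r k y → ‖g y‖ * (r - y.im) ≤ b ⌊Int.fract y.re * 2 ^ k⌋₊

variable {u₀ : ℝ} {η : ℝ → ℝ} {g Q : ℂ → ℂ} {m N : ℕ} {a : ℝ → ℝ}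

theorem near (E : Envl η u₀ m N a) (m1 : 1 ≤ m) (N1 : 1 ≤ N) {s t Λ : ℝ} (s0 : 0 < s) (t0 : 0 < t)
    (Λ1 : 1 ≤ Λ) (h1 : s ≤ Λ * t) (h2 : t ≤ Λ * s) : a s ≤ Λ ^ m * a t := by
  have a0 : 0 ≤ a t := by linarith [E.one t]
  rcases le_total s t with h | h
  · have := E.grow t s s0 h
    refine le_of_mul_le_mul_right (this.trans ?_) (pow_pos s0 m)
    calc a t * t ^ m ≤ a t * (Λ * s) ^ m := by gcongr
      _ = _ := by rw [mul_pow]; ring
  · have := E.dec s t t0 h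
    refine le_of_pow_le_pow_left₀ (n := N) (by omega) (by positivity) ?_
    refine le_of_mul_le_mul_right (this.trans ?_) t0
    have e : Λ ≤ (Λ ^ m) ^ N := by rw [← pow_mul]; exact le_self_pow₀ Λ1 (by positivity)
    calc a t ^ N * s ≤ a t ^ N * ((Λ ^ m) ^ N * t) := by gcongr; exact h1.trans (by gcongr)
      _ = _ := by rw [mul_pow]; ring

theorem boxes (hr : 0 < r) (W : Wd r u₀ η g Q m N 16 a) : ∃ C₅ : ℝ, 0 < C₅ ∧ ∀ k : ℕ, ∃ n : ℕ → ℕ,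
    ∑ i ∈ range (2 ^ k), ((2 : ℝ) ^ n i) ^ 4 ≤ C₅ * 2 ^ k ∧
      OK r g k fun i => 2 ^ m * a (r * (1 / 2) ^ k) * 2 ^ n i := by
  obtain ⟨C, hC⟩ := W.mom
  replace hC := hC a rfl
  refine ⟨1 + 6 * 2 ^ 4 * (3 * |C|), by positivity, fun k => ?_⟩
  have α1 := W.env.one (r * (1 / 2) ^ k)
  obtain ⟨n, n1, n2⟩ := P097S.Brg.mom2 (r := r) (p := 4) (C := 3 * |C|)
    (G := fun j y => y ∈ St r → 0 ≤ y.im →
      ‖g y‖ * (r - y.im) ≤ 2 ^ m * a (r * (1 / 2) ^ k) * 2 ^ j) k fun j => by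
    have l1 : (1 : ℝ) ≤ 4 ^ j := one_le_pow₀ (by norm_num)
    obtain ⟨I, i1, i2⟩ := two hr (hC k _ l1) (hC (k + 1) _ l1)
    refine ⟨I, ?_, fun y hB h => ?_⟩
    · have e : ((2 : ℝ) ^ j) ^ (4 + 1) ≤ (4 ^ j) ^ 16 :=
        (pow_le_pow_left₀ (by positivity) (pow_le_pow_left₀ (by norm_num) (by norm_num) j) _).trans
          (pow_le_pow_right₀ l1 (by norm_num))
      calc _ ≤ 3 * (|C| / (4 ^ j) ^ 16) * 2 ^ k * (4 ^ j) ^ 16 :=
            mul_le_mul (i1.trans (by gcongr; exact le_abs_self C)) e (by positivity) (by positivity)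
        _ = _ := by field_simp
    · push Not at h
      obtain ⟨hy, y0, h⟩ := h
      refine i2 y ⟨hy, ?_⟩ hB
      obtain ⟨c1, c2⟩ := hB
      rw [abs_of_nonneg y0] at c1 c2 ⊢
      have t0 : 0 < r - y.im := lt_of_lt_of_le (by positivity) c1
      have b1 := near W.env W.m1 (by linarith [W.N8]) (s := r - y.im) (t := r * (1 / 2) ^ k)
        (Λ := 2) t0 (by positivity) (by norm_num)
        (by rw [one_div_pow, mul_one_div]; linarith [show 0 < r / 2 ^ k by positivity])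
        (by rw [one_div_pow, mul_one_div]
            rw [pow_succ, ← div_div] at c1
            linarith)
      have b2 : a (r - y.im) * 2 ^ j ≤ ‖g y‖ * (r - y.im) := le_trans (by gcongr) h.le
      have b3 := pow_le_pow_left₀ (by have := W.env.one (r - y.im); positivity) b2 2
      have e : (4 : ℝ) ^ j = (2 ^ j) ^ 2 := by rw [← pow_mul, mul_comm, pow_mul]; norm_num
      have q0 : 0 ≤ ‖Q y‖ * (r - y.im) ^ 2 := by positivity
      rw [e, P097M.Gs]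
      nlinarith
  exact ⟨n, n1, fun i => by positivity, fun y hy y0 hB => n2 y hB hy y0⟩

theorem lev (hr : 0 < r) (W : Wd r u₀ η g Q m N 16 a) (G : GAL r u₀ η g a) : ∃ C₆ : ℝ, 0 < C₆ ∧
    (∀ k : ℕ, ∃ b, OK r g k b ∧
      (∑ i ∈ range (2 ^ k), b i ^ 2) / 2 ^ k ≤ C₆ * a (r * (1 / 2) ^ k) ^ 2) ∧
    ∀ ε Λ : ℝ, 0 < ε → 1 ≤ Λ → ∃ R : ℝ, ∀ u, Pk η u₀ a u → R * u ≤ η u → ∀ k : ℕ,
      η u ≤ Λ * (r * (1 / 2) ^ k) → r * (1 / 2) ^ k ≤ Λ * η u → ∃ b, OK r g k b ∧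
        (∑ i ∈ range (2 ^ k), b i ^ 2) / 2 ^ k ≤ ε * a (r * (1 / 2) ^ k) ^ 2 := by
  classical
  obtain ⟨C₅, C5, h⟩ := boxes hr W
  have sq4 : ∀ n : ℕ, ((2 : ℝ) ^ n) ^ 2 ≤ (2 ^ n) ^ 4 := fun n =>
    pow_le_pow_right₀ (one_le_pow₀ (by norm_num)) (by norm_num)
  refine ⟨(2 ^ m) ^ 2 * C₅, by positivity, fun k => ?_, fun ε Λ ε0 Λ1 => ?_⟩
  · obtain ⟨n, n1, n2⟩ := h k
    refine ⟨_, n2, ?_⟩
    rw [div_le_iff₀ (by positivity)]
    simp only [mul_pow _ ((2 : ℝ) ^ _)]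
    rw [← mul_sum]
    calc _ ≤ (2 ^ m * a (r * (1 / 2) ^ k)) ^ 2 * (C₅ * 2 ^ k) := by
          gcongr
          exact (sum_le_sum fun i _ => sq4 _).trans n1
      _ = _ := by ring
  · obtain ⟨M, hM⟩ : ∃ M : ℝ, M = (2 ^ m) ^ 2 := ⟨_, rfl⟩
    have M0 : 0 < M := by rw [hM]; positivity
    obtain ⟨T, hT⟩ : ∃ T : ℝ, T = 3 * M * C₅ / ε := ⟨_, rfl⟩
    have T0 : 0 < T := by rw [hT]; positivity
    obtain ⟨R, hR⟩ := G (√(ε / 3) / Λ ^ m) (ε / (27 * M * T)) (2 * Λ) (by positivity)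
      (by positivity) (by linarith)
    refine ⟨R, fun u pk hu k k1 k2 => ?_⟩
    have τ0 : 0 < r * (1 / 2 : ℝ) ^ k := by positivity
    have e0 := pk.2.1
    have u0 := pk.1.1
    obtain ⟨n, n1, n2⟩ := h k
    obtain ⟨I, i1, i2⟩ := two hr (hR u pk hu k (by nlinarith) (by nlinarith))
      (hR u pk hu (k + 1) (by rw [pow_succ]; linarith) (by rw [pow_succ]; nlinarith))
    obtain ⟨α, hα⟩ : ∃ α, α = a (r * (1 / 2) ^ k) := ⟨_, rfl⟩
    have α1 : 1 ≤ α := hα ▸ W.env.one _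
    rw [← hα] at n2 ⊢
    have A1 : η u / u ≤ Λ ^ m * α := by
      rw [div_le_iff₀ u0]
      refine (W.env.low u pk.1 e0).trans ?_
      gcongr
      exact hα ▸ near W.env W.m1 (by linarith [W.N8]) e0 τ0 Λ1 k1 k2
    have A2 : √(ε / 3) / Λ ^ m * (η u / u) ≤ √(ε / 3) * α := by
      calc _ ≤ √(ε / 3) / Λ ^ m * (Λ ^ m * α) := by gcongr
        _ = _ := by field_simp
    let S : Finset ℕ := (I ×ˢ Finset.Icc (-1 : ℤ) 1).image
      fun q => ((⌊q.1 * 2 ^ k⌋ + q.2) % 2 ^ k).toNat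
    have S1 : (S.card : ℝ) ≤ 9 * (ε / (27 * M * T)) * 2 ^ k := by
      have : S.card ≤ I.card * 3 := card_image_le.trans (by simp)
      have h2 : (S.card : ℝ) ≤ I.card * 3 := by exact_mod_cast this
      linarith
    refine ⟨fun i => if i ∈ S then 2 ^ m * α * 2 ^ n i else √(ε / 3) * α,
      ⟨fun i => by dsimp only; split_ifs <;> positivity, fun y hy y0 hB => ?_⟩, ?_⟩
    · simp only
      split_ifs with c
      · exact n2.2 y hy y0 hB
      · by_contra k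
        push Not at k
        obtain ⟨b, hb, m', h1⟩ := i2 y ⟨hy, by rw [abs_of_nonneg y0]; linarith⟩ hB
        obtain ⟨e, he, h2⟩ := P097S.Brg.idx _ h1
        exact c (mem_image.2 ⟨(b, e), mem_product.2 ⟨hb, he⟩, h2.symm⟩)
    · rw [div_le_iff₀ (by positivity)]
      have pt : ∀ i, (if i ∈ S then 2 ^ m * α * 2 ^ n i else √(ε / 3) * α) ^ 2 ≤
          ε / 3 * α ^ 2 + M * α ^ 2 * ((if i ∈ S then T else 0) + ((2 : ℝ) ^ n i) ^ 4 / T) := by
        intro i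
        split_ifs with c
        · have x0 : (0 : ℝ) < (2 ^ n i) ^ 2 := by positivity
          have : ((2 : ℝ) ^ n i) ^ 2 ≤ T + (2 ^ n i) ^ 4 / T := by
            rw [show ((2 : ℝ) ^ n i) ^ 4 = ((2 ^ n i) ^ 2) ^ 2 by ring, ← sub_le_iff_le_add',
              le_div_iff₀ T0]
            nlinarith [sq_nonneg (((2 : ℝ) ^ n i) ^ 2 - T)]
          have e : (2 ^ m * α * 2 ^ n i) ^ 2 = M * α ^ 2 * ((2 : ℝ) ^ n i) ^ 2 := by rw [hM]; ring
          rw [e]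
          have := mul_le_mul_of_nonneg_left this (show 0 ≤ M * α ^ 2 by positivity)
          have : 0 ≤ ε / 3 * α ^ 2 := by positivity
          linarith
        · rw [mul_pow, Real.sq_sqrt (by positivity)]
          exact le_add_of_nonneg_right (by positivity)
      refine (sum_le_sum fun i _ => pt i).trans ?_
      rw [sum_add_distrib, ← mul_sum, ← mul_sum, sum_add_distrib, ← sum_div, sum_ite_mem,
        sum_const, sum_const, card_range, nsmul_eq_mul, nsmul_eq_mul]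
      have c1 : (((range (2 ^ k) ∩ S).card : ℕ) : ℝ) ≤ S.card := by
        exact_mod_cast Finset.card_le_card Finset.inter_subset_right
      have c2 : (((range (2 ^ k) ∩ S).card : ℕ) : ℝ) * T ≤ ε / (3 * M) * 2 ^ k := by
        calc _ ≤ 9 * (ε / (27 * M * T)) * 2 ^ k * T := by gcongr; exact c1.trans S1
          _ = _ := by field_simp; ring
      have c3 : (∑ i ∈ range (2 ^ k), ((2 : ℝ) ^ n i) ^ 4) / T ≤ ε / (3 * M) * 2 ^ k := by
        calc _ ≤ C₅ * 2 ^ k / T := by gcongr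
          _ = _ := by rw [hT]; field_simp
      have c4 := mul_le_mul_of_nonneg_left (add_le_add c2 c3) (show 0 ≤ M * α ^ 2 by positivity)
      have c5 : M * α ^ 2 * (ε / (3 * M) * 2 ^ k + ε / (3 * M) * 2 ^ k) =
          2 * ε / 3 * α ^ 2 * 2 ^ k := by field_simp; ring
      push_cast
      nlinarith

/-- every high level lies in the shadow of a peak -/
theorem shadow (hr : 0 < r) (W : Wd r u₀ η g Q m N 16 a) (hη : ∀ u ∈ Ioo 0 u₀, η u ≤ r)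
    {ρ R : ℝ} (ρ0 : 0 < ρ) (ρN : ρ ^ N = 1 / 2) (k : ℕ)
    (h1 : 1 < a (r * (1 / 2) ^ k)) (h2 : 2 * R ≤ a (r * (1 / 2) ^ k)) :
    ∃ u j, Pk η u₀ a u ∧ R * u ≤ η u ∧ r * (1 / 2) ^ (j + 1) < η u ∧ η u ≤ r * (1 / 2) ^ j ∧
      a (r * (1 / 2) ^ k) ≤ 2 ^ (m + 2) * a (r * (1 / 2) ^ j) * ρ ^ (k - j + (j - k)) := by
  have τ0 : 0 < r * (1 / 2 : ℝ) ^ k := by positivity
  have N0 : N ≠ 0 := by have := W.N8; omega
  obtain ⟨u, hu, e0, pk, p1, p2⟩ := W.env.peak _ τ0 h1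
  have u0 := hu.1
  obtain ⟨j, j1, j2⟩ := exists_nat_pow_near_of_lt_one (x := η u / r) (y := (1 / 2 : ℝ))
    (div_pos e0 hr) ((div_le_one hr).2 (hη u hu)) (by norm_num) (by norm_num)
  rw [lt_div_iff₀' hr] at j1
  rw [div_le_iff₀' hr] at j2
  obtain ⟨α, hα⟩ : ∃ α, α = a (r * (1 / 2) ^ k) := ⟨_, rfl⟩
  rw [← hα] at h1 h2 p1 p2 ⊢
  obtain ⟨A, hA⟩ : ∃ A, A = 2 * η u / u := ⟨_, rfl⟩
  have A0 : 0 < A := by rw [hA]; positivity
  rw [← hA] at p1 p2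
  have αA : α ≤ A := by
    rcases le_total (η u) (r * (1 / 2) ^ k) with c | c
    · exact le_of_mul_le_mul_right (p2.trans (by gcongr)) (pow_pos τ0 m)
    · exact le_of_pow_le_pow_left₀ N0 A0.le
        (le_of_mul_le_mul_right (p1.trans (by gcongr)) e0)
  have τj : 0 < r * (1 / 2 : ℝ) ^ j := by positivity
  have A1 : A ≤ 2 * (2 ^ m * a (r * (1 / 2) ^ j)) := by
    rw [hA, div_le_iff₀ u0, mul_assoc]
    refine mul_le_mul_of_nonneg_left ((W.env.low u hu e0).trans ?_) (by norm_num)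
    gcongr
    exact near W.env W.m1 (by omega) e0 τj (by norm_num) (by linarith)
      (by rw [pow_succ] at j1; linarith)
  have ρh : 1 / 2 ≤ ρ := by
    rcases le_total 1 ρ with c | c
    · linarith
    · exact ρN ▸ pow_le_of_le_one ρ0.le c N0
  have key : α ≤ 2 * A * ρ ^ (k - j + (j - k)) := by
    rcases le_total j k with c | c
    · obtain ⟨d, rfl⟩ := Nat.exists_eq_add_of_le c
      rw [show j + d - j + (j - (j + d)) = d by omega]
      refine le_of_pow_le_pow_left₀ N0 (by positivity) ?_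
      refine le_of_mul_le_mul_right (p1.trans ?_) e0
      have e : (2 * A * ρ ^ d) ^ N = 2 ^ N * A ^ N * (1 / 2) ^ d := by
        rw [mul_pow, mul_pow, ← pow_mul, mul_comm d, pow_mul, ρN]
      have t2 : (2 : ℝ) ≤ 2 ^ N := le_self_pow₀ (by norm_num) N0
      rw [e, pow_add]
      rw [pow_succ] at j1
      calc A ^ N * (r * ((1 / 2) ^ j * (1 / 2) ^ d)) =
            2 * A ^ N * (1 / 2) ^ d * (r * ((1 / 2) ^ j * (1 / 2))) := by ring
        _ ≤ _ := by gcongr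
    · obtain ⟨d, rfl⟩ := Nat.exists_eq_add_of_le c
      rw [show k - (k + d) + (k + d - k) = d by omega]
      have b1 : α ≤ A * ((1 / 2) ^ d) ^ m := by
        refine le_of_mul_le_mul_right (p2.trans ?_) (pow_pos τ0 m)
        calc A * η u ^ m ≤ A * (r * (1 / 2) ^ (k + d)) ^ m := by gcongr
          _ = _ := by rw [pow_add, ← mul_assoc r, mul_pow]; ring
      have b2 : (((1 / 2 : ℝ)) ^ d) ^ m ≤ ρ ^ d :=
        (pow_le_of_le_one (by positivity) (pow_le_one₀ (by norm_num) (by norm_num))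
          (by have := W.m1; omega)).trans (pow_le_pow_left₀ (by norm_num) ρh d)
      have b3 : 0 < ρ ^ d := by positivity
      nlinarith
  refine ⟨u, j, ⟨hu, e0, pk⟩, ?_, j1, j2, key.trans ?_⟩
  · have : 2 * R ≤ 2 * η u / u := hA ▸ h2.trans αA
    rw [le_div_iff₀ u0] at this
    linarith
  · calc 2 * A * ρ ^ (k - j + (j - k)) ≤
          2 * (2 * (2 ^ m * a (r * (1 / 2) ^ j))) * ρ ^ (k - j + (j - k)) := by gcongr
      _ = _ := by ring

theorem key (hr : 0 < r) (W : Wd r u₀ η g Q m N 16 a) (hη : ∀ u ∈ Ioo 0 u₀, η u ≤ r)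
    {σ C₆ M ε R₀ R₁ R₂ : ℝ} {n : ℕ} (σN : σ ^ (2 * N) = 1 / 2) (ρ0 : 0 < σ ^ 2) (ρ1 : σ ^ 2 < 1)
    (C6 : 0 < C₆) (hM : M = (2 ^ (m + 2)) ^ 2) (ε0 : 0 < ε) (hn : (σ ^ 2) ^ n * C₆ < ε)
    (L1 : ∀ k : ℕ, ∃ b, OK r g k b ∧
      (∑ i ∈ range (2 ^ k), b i ^ 2) / 2 ^ k ≤ C₆ * a (r * (1 / 2) ^ k) ^ 2)
    (L2 : ∀ u, Pk η u₀ a u → R₁ * u ≤ η u → ∀ k : ℕ,
      η u ≤ 2 ^ (n + 1) * (r * (1 / 2) ^ k) → r * (1 / 2) ^ k ≤ 2 ^ (n + 1) * η u →
        ∃ b, OK r g k b ∧ (∑ i ∈ range (2 ^ k), b i ^ 2) / 2 ^ k ≤ ε * a (r * (1 / 2) ^ k) ^ 2)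
    (r1 : 1 ≤ R₂) (r2 : 2 * max R₀ R₁ ≤ R₂) :
    ∀ k : ℕ, ∃ (b : ℕ → ℝ) (j : ℕ), OK r g k b ∧
      ((∑ i ∈ range (2 ^ k), b i ^ 2) / 2 ^ k ≤ C₆ * R₂ ^ 2 ∨ PL r u₀ η a R₀ j ∧
        (∑ i ∈ range (2 ^ k), b i ^ 2) / 2 ^ k ≤
          ε * M * (a (r * (1 / 2) ^ j) ^ 2 * (σ ^ 2) ^ (k - j + (j - k)))) := by
  have M0 : 0 < M := by rw [hM]; positivity
  intro k
  have α1 := W.env.one (r * (1 / 2) ^ k)
  rcases le_or_gt (a (r * (1 / 2) ^ k)) R₂ with c | c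
  · obtain ⟨b, b1, b2⟩ := L1 k
    exact ⟨b, 0, b1, Or.inl (b2.trans (by gcongr))⟩
  obtain ⟨u, j, pk, hu, j1, j2, sh⟩ := shadow (R := max R₀ R₁) hr W hη ρ0
    (by rw [← pow_mul, σN]) k (by linarith) (by linarith)
  have u0 := pk.1.1
  have pl : PL r u₀ η a R₀ j := ⟨u, pk, le_trans (by gcongr; exact le_max_left _ _) hu, j1, j2⟩
  obtain ⟨x, hx⟩ : ∃ x, x = (σ ^ 2) ^ (k - j + (j - k)) := ⟨_, rfl⟩
  have x0 : 0 < x := by rw [hx]; positivity
  have x1 : x ≤ 1 := hx ▸ pow_le_one₀ ρ0.le ρ1.le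
  rw [← hx] at sh
  have sq : a (r * (1 / 2) ^ k) ^ 2 ≤ M * (a (r * (1 / 2) ^ j) ^ 2 * x) * x := by
    refine (pow_le_pow_left₀ (by linarith) sh 2).trans (le_of_eq ?_)
    rw [hM]; ring
  have z0 : 0 ≤ M * (a (r * (1 / 2) ^ j) ^ 2 * x) := by positivity
  rcases le_or_gt n (k - j + (j - k)) with c' | c'
  · obtain ⟨b, b1, b2⟩ := L1 k
    refine ⟨b, j, b1, Or.inr ⟨pl, b2.trans ?_⟩⟩
    rw [← hx]
    have x2 : x ≤ (σ ^ 2) ^ n := hx ▸ pow_le_pow_of_le_one ρ0.le ρ1.le c'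
    have x3 : x * C₆ ≤ ε := le_trans (by gcongr) hn.le
    calc _ ≤ C₆ * (M * (a (r * (1 / 2) ^ j) ^ 2 * x) * x) := by gcongr
      _ = x * C₆ * (M * (a (r * (1 / 2) ^ j) ^ 2 * x)) := by ring
      _ ≤ ε * (M * (a (r * (1 / 2) ^ j) ^ 2 * x)) := by gcongr
      _ = _ := by ring
  · have cmp : ∀ i l : ℕ, l ≤ i + n → r * (1 / 2 : ℝ) ^ i ≤ 2 ^ n * (r * (1 / 2) ^ l) := by
      intro i l h
      have e : (1 / 2 : ℝ) ^ n * 2 ^ n = 1 := by rw [← mul_pow]; norm_num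
      have : (1 / 2 : ℝ) ^ (i + n) ≤ (1 / 2) ^ l :=
        pow_le_pow_of_le_one (by norm_num) (by norm_num) h
      calc r * (1 / 2 : ℝ) ^ i = 2 ^ n * (r * (1 / 2) ^ (i + n)) := by
            rw [pow_add]; linear_combination (-(r * (1 / 2 : ℝ) ^ i)) * e
        _ ≤ _ := by gcongr
    have p0 : (0 : ℝ) < 2 ^ n := by positivity
    obtain ⟨b, b1, b2⟩ := L2 u pk (le_trans (by gcongr; exact le_max_right _ _) hu) k
      (by have := cmp j k (by omega)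
          have : 0 ≤ 2 ^ n * (r * (1 / 2 : ℝ) ^ k) := by positivity
          rw [pow_succ]; linarith)
      (by have := cmp k j (by omega)
          rw [pow_succ] at j1 ⊢
          nlinarith)
    refine ⟨b, j, b1, Or.inr ⟨pl, b2.trans ?_⟩⟩
    rw [← hx]
    calc _ ≤ ε * (M * (a (r * (1 / 2) ^ j) ^ 2 * x) * x) := by gcongr
      _ ≤ ε * (M * (a (r * (1 / 2) ^ j) ^ 2 * x) * 1) := by gcongr
      _ = _ := by ring

theorem fin {δ ε M C₈ C₉ P Z L s t : ℝ} (δ0 : 0 < δ) (q0 : 0 < ε * M) (C9 : 0 ≤ C₉) (P0 : 0 ≤ P)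
    (h : ε * M * (C₈ + 1) = δ / 4) (hZ : Z = 2 * P + ε * M * C₉) (l1 : 1 ≤ L) (l2 : 2 * Z ≤ L * δ)
    (s1 : t ≤ C₈ * L ^ 2 + C₉) (s2 : s ≤ (L + 1) * P + ε * M * t) : s ≤ δ * L ^ 2 := by
  have s3 := mul_le_mul_of_nonneg_left s1 q0.le
  have s4 : ε * M * C₈ ≤ δ / 4 := by linarith
  have s5 : ε * M * C₈ * L ^ 2 ≤ δ / 4 * L ^ 2 := by gcongr
  have q2 : 0 ≤ ε * M * C₉ := mul_nonneg q0.le C9
  have s6 : (L + 1) * P + ε * M * C₉ ≤ Z * L := by
    rw [hZ]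
    nlinarith
  have s7 : Z * L ≤ δ / 2 * L ^ 2 := by nlinarith
  have s8 : 0 ≤ δ * L ^ 2 := by positivity
  linarith

end Tha

open Tha in
theorem tha : S_THA := by
  intro r c κ u₀ p θ H Q Y₀ η Y D m N a W G ⟨C₀, R₀, V⟩ δ δ0 L₀
  classical
  have hr := D.cur.rpos
  have hη : ∀ u ∈ Ioo 0 u₀, η u ≤ r := fun u hu => by linarith [D.fam.low u hu, D.fam.sol.pos]
  have N0 : 2 * N ≠ 0 := by have := W.N8; omega
  obtain ⟨σ, σ0, σN⟩ : ∃ σ : ℝ, 0 < σ ∧ σ ^ (2 * N) = 1 / 2 :=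
    ⟨_, Real.rpow_pos_of_pos (by norm_num) _, Real.rpow_inv_natCast_pow (by norm_num) N0⟩
  have σ1 : σ < 1 := by
    by_contra k
    have := one_le_pow₀ (n := 2 * N) (not_lt.1 k)
    linarith
  have ρ0 : 0 < σ ^ 2 := by positivity
  have ρ1 : σ ^ 2 < 1 := pow_lt_one₀ σ0.le σ1 two_ne_zero
  obtain ⟨C₆, C6, L1, L2⟩ := lev hr W G
  obtain ⟨C₈, C₉, C8, C9, S⟩ := Tha.sum (α := fun k => a (r * (1 / 2) ^ k))
    (P := PL r u₀ η a R₀) σ0.le σ1 V
  obtain ⟨M, hM⟩ : ∃ M : ℝ, M = (2 ^ (m + 2)) ^ 2 := ⟨_, rfl⟩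
  have M0 : 0 < M := by rw [hM]; positivity
  obtain ⟨ε, hε⟩ : ∃ ε : ℝ, ε = δ / (4 * M * (C₈ + 1)) := ⟨_, rfl⟩
  have ε0 : 0 < ε := by rw [hε]; positivity
  obtain ⟨n, hn⟩ := exists_pow_lt_of_lt_one (div_pos ε0 C6) ρ1
  rw [lt_div_iff₀ C6] at hn
  obtain ⟨R₁, L2⟩ := L2 ε (2 ^ (n + 1)) ε0 (one_le_pow₀ (by norm_num))
  obtain ⟨R₂, r1, r2⟩ : ∃ R₂ : ℝ, 1 ≤ R₂ ∧ 2 * max R₀ R₁ ≤ R₂ :=
    ⟨max 1 (2 * max R₀ R₁), le_max_left _ _, le_max_right _ _⟩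
  choose b j b1 b2 using key hr W hη σN ρ0 ρ1 C6 hM ε0 hn L1 L2 r1 r2
  obtain ⟨Z, hZ⟩ : ∃ Z : ℝ, Z = 2 * (C₆ * R₂ ^ 2) + ε * M * C₉ := ⟨_, rfl⟩
  have Z0 : 0 ≤ Z := by rw [hZ]; positivity
  obtain ⟨L, hL⟩ := exists_nat_ge (max (max (L₀ : ℝ) 1) (2 * Z / δ))
  have l0 : (L₀ : ℝ) ≤ L := ((le_max_left _ _).trans (le_max_left _ _)).trans hL
  have l1 : (1 : ℝ) ≤ L := ((le_max_right _ _).trans (le_max_left _ _)).trans hL
  have l2 : 2 * Z ≤ L * δ := (div_le_iff₀ δ0).1 ((le_max_right _ _).trans hL)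
  refine ⟨L, by exact_mod_cast l0, b, fun k => (b1 k).1, ?_, fun k _ => (b1 k).2⟩
  set K := (range (L + 1)).filter fun k => PL r u₀ η a R₀ (j k) with hK
  have s1 := S L K j (by exact_mod_cast l1) (filter_subset _ _) fun k hk => (mem_filter.1 hk).2
  have s2 : ∑ k ∈ range (L + 1), (∑ i ∈ range (2 ^ k), b k i ^ 2) / 2 ^ k ≤
      ∑ k ∈ range (L + 1), (C₆ * R₂ ^ 2 + if PL r u₀ η a R₀ (j k) then
        ε * M * (a (r * (1 / 2) ^ j k) ^ 2 * (σ ^ 2) ^ (k - j k + (j k - k))) else 0) := by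
    refine sum_le_sum fun k _ => ?_
    rcases b2 k with h | ⟨h1, h2⟩
    · exact h.trans (le_add_of_nonneg_right (by split_ifs <;> positivity))
    · rw [if_pos h1]
      exact h2.trans (le_add_of_nonneg_left (by positivity))
  rw [sum_add_distrib, ← sum_filter, ← hK, sum_const, card_range, nsmul_eq_mul, ← mul_sum] at s2
  rw [Nat.cast_add, Nat.cast_one] at s2
  exact fin δ0 (mul_pos ε0 M0) C9 (by positivity) (by rw [hε]; field_simp) hZ l1 l2 s1 s2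

end Vale.Agent.P097F.Di
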